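import Mathlib

/-!
P116, block [7], deterministic sums over the cells of a square grid: energy sums, boundary sums.
-/

open Set Filter Topology Metric Bornology MeasureTheory
open scoped ENNReal NNReal

namespace Vale.Agent.P116.KB720

/-- closed cell of the grid of mesh `d` -/
def cell (d : ℝ) (v : ℤ × ℤ) : Set ℂ :=
  {z | d * v.1 ≤ z.re ∧ z.re ≤ d * (v.1 + 1) ∧ d * v.2 ≤ z.im ∧ z.im ≤ d * (v.2 + 1)}

/-- half open cell -/
def cello (d : ℝ) (v : ℤ × ℤ) : Set ℂ :=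
  {z | d * v.1 ≤ z.re ∧ z.re < d * (v.1 + 1) ∧ d * v.2 ≤ z.im ∧ z.im < d * (v.2 + 1)}

lemma cello_subset (d : ℝ) (v : ℤ × ℤ) : cello d v ⊆ cell d v :=
  fun _ hz => ⟨hz.1, hz.2.1.le, hz.2.2.1, hz.2.2.2.le⟩

lemma cell_eq (d : ℝ) (v : ℤ × ℤ) :
    cell d v = Icc (d * v.1) (d * (v.1 + 1)) ×ℂ Icc (d * v.2) (d * (v.2 + 1)) := by
  ext z
  simp only [cell, Complex.mem_reProdIm, mem_Icc, mem_ofPred_eq]
  tauto

lemma cello_eq (d : ℝ) (v : ℤ × ℤ) :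
    cello d v = Ico (d * v.1) (d * (v.1 + 1)) ×ℂ Ico (d * v.2) (d * (v.2 + 1)) := by
  ext z
  simp only [cello, Complex.mem_reProdIm, mem_Ico, mem_ofPred_eq]
  tauto

lemma convex_cell (d : ℝ) (v : ℤ × ℤ) : Convex ℝ (cell d v) := by
  have h : cell d v = Complex.reLm ⁻¹' (Icc (d * v.1) (d * (v.1 + 1))) ∩
      Complex.imLm ⁻¹' (Icc (d * v.2) (d * (v.2 + 1))) := by
    rw [cell_eq]
    rfl
  rw [h]
  exact ((convex_Icc _ _).linear_preimage _).inter ((convex_Icc _ _).linear_preimage _)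

lemma isCompact_cell (d : ℝ) (v : ℤ × ℤ) : IsCompact (cell d v) := by
  rw [cell_eq]
  exact isCompact_Icc.reProdIm isCompact_Icc

lemma isClosed_cell (d : ℝ) (v : ℤ × ℤ) : IsClosed (cell d v) := (isCompact_cell d v).isClosed

lemma measurableSet_cello (d : ℝ) (v : ℤ × ℤ) : MeasurableSet (cello d v) := by
  rw [cello_eq]
  exact (measurableSet_Ico.preimage Complex.measurable_re).inter
    (measurableSet_Ico.preimage Complex.measurable_im)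

lemma volume_cello {d : ℝ} (hd : 0 < d) (v : ℤ × ℤ) :
    volume (cello d v) = ENNReal.ofReal (d ^ 2) := by
  rw [cello_eq]
  have h := Complex.volume_preserving_equiv_real_prod.symm.measure_preimage
    (s := Ico (d * v.1) (d * (v.1 + 1)) ×ℂ Ico (d * v.2) (d * (v.2 + 1))) (by
      exact ((measurableSet_Ico.preimage Complex.measurable_re).inter
        (measurableSet_Ico.preimage Complex.measurable_im)).nullMeasurableSet)
  rw [← h]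
  have h2 : Complex.measurableEquivRealProd.symm ⁻¹'
      (Ico (d * v.1) (d * (v.1 + 1)) ×ℂ Ico (d * v.2) (d * (v.2 + 1))) =
      (Ico (d * (v.1:ℝ)) (d * (v.1 + 1))) ×ˢ (Ico (d * (v.2:ℝ)) (d * (v.2 + 1))) := by
    ext p
    simp only [mem_preimage, Complex.mem_reProdIm, mem_prod]
    rfl
  rw [h2, Measure.volume_eq_prod, Measure.prod_prod, Real.volume_Ico, Real.volume_Ico,
    ← ENNReal.ofReal_mul (by nlinarith)]
  congr 1
  ring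

lemma cello_disjoint {d : ℝ} (hd : 0 < d) {v v' : ℤ × ℤ} (h : v ≠ v') :
    Disjoint (cello d v) (cello d v') := by
  rw [disjoint_left]
  rintro z ⟨h1, h2, h3, h4⟩ ⟨g1, g2, g3, g4⟩
  apply h
  have e1 : (v.1 : ℝ) < v'.1 + 1 := lt_of_mul_lt_mul_left (h1.trans_lt g2) hd.le
  have e2 : (v'.1 : ℝ) < v.1 + 1 := lt_of_mul_lt_mul_left (g1.trans_lt h2) hd.le
  have e3 : (v.2 : ℝ) < v'.2 + 1 := lt_of_mul_lt_mul_left (h3.trans_lt g4) hd.le
  have e4 : (v'.2 : ℝ) < v.2 + 1 := lt_of_mul_lt_mul_left (g3.trans_lt h4) hd.le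
  have f1 : v.1 < v'.1 + 1 := by exact_mod_cast e1
  have f2 : v'.1 < v.1 + 1 := by exact_mod_cast e2
  have f3 : v.2 < v'.2 + 1 := by exact_mod_cast e3
  have f4 : v'.2 < v.2 + 1 := by exact_mod_cast e4
  exact Prod.ext (by omega) (by omega)

lemma dist_sq_le {d : ℝ} {v : ℤ × ℤ} {z z' : ℂ} (hz : z ∈ cell d v) (hz' : z' ∈ cell d v) :
    ‖z - z'‖ ^ 2 ≤ 2 * d ^ 2 := by
  obtain ⟨h1, h2, h3, h4⟩ := hz
  obtain ⟨g1, g2, g3, g4⟩ := hz'
  rw [Complex.sq_norm, Complex.normSq_apply, Complex.sub_re, Complex.sub_im]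
  nlinarith [abs_le.2 ⟨(by linarith : -d ≤ z.re - z'.re), (by linarith : z.re - z'.re ≤ d)⟩,
    abs_le.2 ⟨(by linarith : -d ≤ z.im - z'.im), (by linarith : z.im - z'.im ≤ d)⟩,
    sq_abs (z.re - z'.re), sq_abs (z.im - z'.im), abs_nonneg (z.re - z'.re),
    abs_nonneg (z.im - z'.im)]

/-- `ρ` majorizes the slope of `u` on the segments in `G` -/
def Maj (G : Set ℂ) (u ρ : ℂ → ℝ) : Prop := ∀ z z' : ℂ, segment ℝ z z' ⊆ G → ∀ M : ℝ,
  (∀ x ∈ segment ℝ z z', ρ x ≤ M) → |u z - u z'| ≤ M * ‖z - z'‖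

/-- oscillation on a cell -/
noncomputable def oc (u : ℂ → ℝ) (d : ℝ) (v : ℤ × ℤ) : ℝ := Metric.diam (u '' cell d v)

lemma oc_nonneg (u : ℂ → ℝ) (d : ℝ) (v : ℤ × ℤ) : 0 ≤ oc u d v := Metric.diam_nonneg

lemma Maj.oc_le {G : Set ℂ} {u ρ : ℂ → ℝ} (h : Maj G u ρ) {d : ℝ} (hd : 0 ≤ d) {v : ℤ × ℤ}
    (hv : cell d v ⊆ G) {M : ℝ} (hM0 : 0 ≤ M) (hM : ∀ z ∈ cell d v, ρ z ≤ M) :
    oc u d v ≤ M * (2 * d) := by
  refine Metric.diam_le_of_forall_dist_le (by positivity) ?_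
  rintro _ ⟨z, hz, rfl⟩ _ ⟨z', hz', rfl⟩
  have hs : segment ℝ z z' ⊆ cell d v := (convex_cell d v).segment_subset hz hz'
  have h1 := h z z' (hs.trans hv) M fun x hx => hM x (hs hx)
  rw [Real.dist_eq]
  refine h1.trans (mul_le_mul_of_nonneg_left ?_ hM0)
  have h2 := dist_sq_le hz hz'
  nlinarith [norm_nonneg (z - z')]

lemma Maj.oc_sq_le {G : Set ℂ} {u ρ : ℂ → ℝ} (h : Maj G u ρ) {d : ℝ} (hd : 0 ≤ d) {v : ℤ × ℤ}
    (hv : cell d v ⊆ G) {M : ℝ}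
    (hM : ∀ z ∈ cell d v, ρ z ^ 2 ≤ M) : oc u d v ^ 2 ≤ 2 * d ^ 2 * M := by
  have hv0 : (⟨d * v.1, d * v.2⟩ : ℂ) ∈ cell d v :=
    ⟨le_rfl, by nlinarith, le_rfl, by nlinarith⟩
  have hM0 : 0 ≤ M := (sq_nonneg _).trans (hM _ hv0)
  have h1 : oc u d v ≤ Real.sqrt (2 * d ^ 2 * M) := by
    refine Metric.diam_le_of_forall_dist_le (Real.sqrt_nonneg _) ?_
    rintro _ ⟨z, hz, rfl⟩ _ ⟨z', hz', rfl⟩
    have hs : segment ℝ z z' ⊆ cell d v := (convex_cell d v).segment_subset hz hz'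
    have h1 := h z z' (hs.trans hv) (Real.sqrt M) fun x hx =>
      Real.le_sqrt_of_sq_le (hM x (hs hx))
    rw [Real.dist_eq]
    refine h1.trans (Real.le_sqrt_of_sq_le ?_)
    rw [mul_pow, Real.sq_sqrt hM0]
    have h2 := dist_sq_le hz hz'
    nlinarith
  calc oc u d v ^ 2 ≤ Real.sqrt (2 * d ^ 2 * M) ^ 2 := pow_le_pow_left₀ (oc_nonneg _ _ _) h1 2
    _ = 2 * d ^ 2 * M := Real.sq_sqrt (by positivity)

/-- a cell on which `ρ ^ 2` is constant up to `1` -/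
def Flat (ρ : ℂ → ℝ) (d : ℝ) (v : ℤ × ℤ) : Prop :=
  ∃ M : ℝ, ∀ z ∈ cell d v, ρ z ^ 2 ≤ M ∧ M ≤ ρ z ^ 2 + 1

lemma Maj.oc_sq_le_lintegral {G : Set ℂ} {u ρ : ℂ → ℝ} (h : Maj G u ρ) {d : ℝ} (hd : 0 < d)
    {v : ℤ × ℤ} (hv : cell d v ⊆ G) (hf : Flat ρ d v) :
    ENNReal.ofReal (oc u d v ^ 2) ≤
      2 * ∫⁻ z in cello d v, (ENNReal.ofReal (ρ z ^ 2) + 1) := by
  obtain ⟨M, hM⟩ := hf
  have h1 := h.oc_sq_le hd.le hv fun z hz => (hM z hz).1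
  have h2 : ∫⁻ _ in cello d v, ENNReal.ofReal M ≤
      ∫⁻ z in cello d v, (ENNReal.ofReal (ρ z ^ 2) + 1) := by
    refine setLIntegral_mono' (measurableSet_cello d v) fun z hz => ?_
    rw [← ENNReal.ofReal_one, ← ENNReal.ofReal_add (sq_nonneg _) zero_le_one]
    exact ENNReal.ofReal_le_ofReal (hM z (cello_subset d v hz)).2
  calc ENNReal.ofReal (oc u d v ^ 2) ≤ ENNReal.ofReal (2 * d ^ 2 * M) :=
        ENNReal.ofReal_le_ofReal h1
    _ = 2 * (ENNReal.ofReal M * ENNReal.ofReal (d ^ 2)) := by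
        rw [← ENNReal.ofReal_mul' (sq_nonneg d), show (2:ℝ≥0∞) = ENNReal.ofReal 2 by simp,
          ← ENNReal.ofReal_mul zero_le_two]
        congr 1
        ring
    _ = 2 * ∫⁻ _ in cello d v, ENNReal.ofReal M := by
        rw [setLIntegral_const, volume_cello hd]
    _ ≤ _ := by gcongr

/-- **[ENS]** energy sums over flat cells -/
theorem ens {G W : Set ℂ} {u ρ : ℂ → ℝ} (h : Maj G u ρ) {d : ℝ}
    (hd : 0 < d) (T : Finset (ℤ × ℤ)) (hG : ∀ v ∈ T, cell d v ⊆ G)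
    (hW : ∀ v ∈ T, cell d v ⊆ W) (hf : ∀ v ∈ T, Flat ρ d v) :
    ∑ v ∈ T, ENNReal.ofReal (oc u d v ^ 2) ≤
      2 * ∫⁻ z in W, (ENNReal.ofReal (ρ z ^ 2) + 1) := by
  calc ∑ v ∈ T, ENNReal.ofReal (oc u d v ^ 2)
      ≤ ∑ v ∈ T, 2 * ∫⁻ z in cello d v, (ENNReal.ofReal (ρ z ^ 2) + 1) :=
        Finset.sum_le_sum fun v hv =>
          h.oc_sq_le_lintegral hd (hG v hv) (hf v hv)
    _ = 2 * ∑ v ∈ T, ∫⁻ z in cello d v, (ENNReal.ofReal (ρ z ^ 2) + 1) := by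
        rw [Finset.mul_sum]
    _ = 2 * ∫⁻ z in ⋃ v ∈ T, cello d v, (ENNReal.ofReal (ρ z ^ 2) + 1) := by
        rw [lintegral_biUnion_finset (fun v _ v' _ hne => cello_disjoint hd hne)
          fun v _ => measurableSet_cello d v]
    _ ≤ _ := by
        gcongr
        exact iUnion₂_subset fun v hv => (cello_subset d v).trans (hW v hv)

/-- energy sums of products -/
theorem ens_mul {G W : Set ℂ} {u ρ u' ρ' : ℂ → ℝ} (h : Maj G u ρ) (h' : Maj G u' ρ')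
    {d : ℝ}
    (hd : 0 < d) (T : Finset (ℤ × ℤ)) (hG : ∀ v ∈ T, cell d v ⊆ G)
    (hW : ∀ v ∈ T, cell d v ⊆ W) (hf : ∀ v ∈ T, Flat ρ d v) (hf' : ∀ v ∈ T, Flat ρ' d v) :
    ∑ v ∈ T, ENNReal.ofReal (oc u d v) * ENNReal.ofReal (oc u' d v) ≤
      2 * ((∫⁻ z in W, (ENNReal.ofReal (ρ z ^ 2) + 1)) +
        ∫⁻ z in W, (ENNReal.ofReal (ρ' z ^ 2) + 1)) := by
  have h1 := ens h hd T hG hW hf
  have h2 := ens h' hd T hG hW hf'
  rw [mul_add]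
  refine le_trans ?_ (add_le_add h1 h2)
  rw [← Finset.sum_add_distrib]
  refine Finset.sum_le_sum fun v _ => ?_
  rw [← ENNReal.ofReal_mul (oc_nonneg _ _ _), ← ENNReal.ofReal_add (sq_nonneg _) (sq_nonneg _)]
  refine ENNReal.ofReal_le_ofReal ?_
  nlinarith [sq_nonneg (oc u d v - oc u' d v), sq_nonneg (oc u d v), sq_nonneg (oc u' d v)]

/-- **[EVT]** the small cells which meet a compact subset of `G` are flat cells in `G` -/
theorem evt {G A : Set ℂ} (hG : IsOpen G) (hA : IsCompact A) (hAG : A ⊆ G) {ρ : ℂ → ℝ}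
    (hρ : ContinuousOn ρ G) : ∃ δ > 0, ∀ d, 0 < d → d < δ → ∀ v : ℤ × ℤ,
      (cell d v ∩ A).Nonempty → cell d v ⊆ G ∧ Flat ρ d v := by
  obtain ⟨δ₁, hδ₁, hδG⟩ := hA.exists_cthickening_subset_open hG hAG
  have hc : IsCompact (cthickening δ₁ A) := hA.cthickening
  have huc : UniformContinuousOn (fun z => ρ z ^ 2) (cthickening δ₁ A) :=
    hc.uniformContinuousOn_of_continuous ((hρ.mono hδG).pow 2)
  obtain ⟨δ₂, hδ₂, h2⟩ := Metric.uniformContinuousOn_iff.1 huc (1 / 2) (by norm_num)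
  refine ⟨min δ₁ δ₂ / 2, by positivity, fun d hd hdδ v ⟨a, hav, haA⟩ => ?_⟩
  have hd1 : ∀ z ∈ cell d v, ∀ z' ∈ cell d v, dist z z' < min δ₁ δ₂ := by
    intro z hz z' hz'
    have h3 := dist_sq_le hz hz'
    rw [dist_eq_norm]
    have : ‖z - z'‖ ≤ 2 * d := by nlinarith [norm_nonneg (z - z')]
    linarith
  have hsub : cell d v ⊆ cthickening δ₁ A := by
    intro z hz
    exact mem_cthickening_of_dist_le z a _ A haA
      ((hd1 z hz a hav).le.trans (min_le_left _ _))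
  refine ⟨hsub.trans hδG, ρ a ^ 2 + 1 / 2, fun z hz => ?_⟩
  have h4 := h2 z (hsub hz) a (hsub hav) ((hd1 z hz a hav).trans_le (min_le_right _ _))
  rw [Real.dist_eq] at h4
  obtain ⟨h5, h6⟩ := abs_lt.1 h4
  constructor <;> linarith

/-! ### boundary cells -/

/-- the fine cells `v` (of mesh `d₀ / 2 ^ k`) which meet the union of the coarse cells in `D`
(mesh `d₀`) but are not in it -/
def bdc (d₀ : ℝ) (D : Set (ℤ × ℤ)) (k : ℕ) : Set (ℤ × ℤ) :=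
  {v | (cell (d₀ / 2 ^ k) v ∩ ⋃ V ∈ D, cell d₀ V).Nonempty ∧
    ¬ cell (d₀ / 2 ^ k) v ⊆ ⋃ V ∈ D, cell d₀ V}

/-- the coarse cell which contains the fine cell `v` -/
def par (k : ℕ) (v : ℤ × ℤ) : ℤ × ℤ := (v.1 / 2 ^ k, v.2 / 2 ^ k)

lemma cell_subset_par {d₀ : ℝ} (hd : 0 < d₀) (k : ℕ) (v : ℤ × ℤ) :
    cell (d₀ / 2 ^ k) v ⊆ cell d₀ (par k v) := by
  rintro z ⟨h1, h2, h3, h4⟩
  have hp : (0:ℝ) < 2 ^ k := by positivity
  have hpZ : (0:ℤ) < 2 ^ k := by positivity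
  have key : ∀ n : ℤ, d₀ * ((n / 2 ^ k : ℤ) : ℝ) ≤ d₀ / 2 ^ k * n ∧
      d₀ / 2 ^ k * (n + 1) ≤ d₀ * (((n / 2 ^ k : ℤ) : ℝ) + 1) := by
    intro n
    have e1 : (n / 2 ^ k) * 2 ^ k ≤ n := Int.ediv_mul_le n hpZ.ne'
    have e2 : n + 1 ≤ (n / 2 ^ k + 1) * 2 ^ k := Int.lt_ediv_add_one_mul_self n hpZ
    have f1 : ((n / 2 ^ k : ℤ) : ℝ) * 2 ^ k ≤ n := by exact_mod_cast e1
    have f2 : (n:ℝ) + 1 ≤ (((n / 2 ^ k : ℤ) : ℝ) + 1) * 2 ^ k := by exact_mod_cast e2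
    constructor
    · rw [div_mul_eq_mul_div, le_div_iff₀ hp]
      nlinarith
    · rw [div_mul_eq_mul_div, div_le_iff₀ hp]
      nlinarith
  exact ⟨(key v.1).1.trans h1, h2.trans (key v.1).2, (key v.2).1.trans h3, h4.trans (key v.2).2⟩

/-- the frame of a coarse cell -/
noncomputable def frame (k : ℕ) (V : ℤ × ℤ) : Finset (ℤ × ℤ) :=
  ({2 ^ k * V.1 - 1, 2 ^ k * (V.1 + 1)} : Finset ℤ) ×ˢ Finset.Icc (2 ^ k * V.2 - 1) (2 ^ k * (V.2 + 1)) ∪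
  Finset.Icc (2 ^ k * V.1 - 1) (2 ^ k * (V.1 + 1)) ×ˢ ({2 ^ k * V.2 - 1, 2 ^ k * (V.2 + 1)} : Finset ℤ)

lemma card_frame_le (k : ℕ) (V : ℤ × ℤ) : (frame k V).card ≤ 12 * 2 ^ k := by
  have h1 : ∀ n : ℤ, (Finset.Icc (2 ^ k * n - 1) (2 ^ k * (n + 1)) : Finset ℤ).card = 2 ^ k + 2 := by
    intro n
    rw [Int.card_Icc]
    have : (2:ℤ) ^ k * (n + 1) + 1 - (2 ^ k * n - 1) = ((2 ^ k + 2 : ℕ) : ℤ) := by
      push_cast
      ring
    rw [this, Int.toNat_natCast]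
  have h2 : ∀ a b : ℤ, ({a, b} : Finset ℤ).card ≤ 2 := fun a b => Finset.card_le_two
  have h3 : 1 ≤ 2 ^ k := Nat.one_le_two_pow
  refine (Finset.card_union_le _ _).trans ?_
  rw [Finset.card_product, Finset.card_product, h1, h1]
  have g1 := h2 (2 ^ k * V.1 - 1) (2 ^ k * (V.1 + 1))
  have g2 := h2 (2 ^ k * V.2 - 1) (2 ^ k * (V.2 + 1))
  nlinarith

lemma bdc_subset {d₀ : ℝ} (hd : 0 < d₀) (D : Finset (ℤ × ℤ)) (k : ℕ) :
    bdc d₀ D k ⊆ ↑(D.biUnion (frame k)) := by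
  rintro v ⟨⟨z, hz, hzD⟩, hnot⟩
  obtain ⟨V, hV, hzV⟩ := mem_iUnion₂.1 hzD
  have hVD : V ∈ D := hV
  rw [Finset.coe_biUnion]
  refine mem_iUnion₂.2 ⟨V, hV, ?_⟩
  have hp : (0:ℝ) < 2 ^ k := by positivity
  have hpZ : (0:ℤ) < 2 ^ k := by positivity
  obtain ⟨h1, h2, h3, h4⟩ := hz
  obtain ⟨g1, g2, g3, g4⟩ := hzV
  have key : ∀ (n N : ℤ) (x : ℝ), d₀ / 2 ^ k * n ≤ x → x ≤ d₀ / 2 ^ k * (n + 1) →
      d₀ * N ≤ x → x ≤ d₀ * (N + 1) → 2 ^ k * N - 1 ≤ n ∧ n ≤ 2 ^ k * (N + 1) := by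
    intro n N x e1 e2 e3 e4
    have f1 : d₀ * N ≤ d₀ / 2 ^ k * (n + 1) := e3.trans e2
    have f2 : d₀ / 2 ^ k * n ≤ d₀ * (N + 1) := e1.trans e4
    rw [div_mul_eq_mul_div, le_div_iff₀ hp, mul_assoc] at f1
    rw [div_mul_eq_mul_div, div_le_iff₀ hp, mul_assoc] at f2
    have f3 := le_of_mul_le_mul_left f1 hd
    have f4 := le_of_mul_le_mul_left f2 hd
    have f5 : N * 2 ^ k ≤ n + 1 := by exact_mod_cast f3
    have f6 : n ≤ (N + 1) * 2 ^ k := by exact_mod_cast f4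
    constructor <;> nlinarith
  have k1 := key v.1 V.1 z.re h1 h2 g1 g2
  have k2 := key v.2 V.2 z.im h3 h4 g3 g4
  -- the parent is not in `D`
  have hpar : par k v ≠ V := by
    intro h
    apply hnot
    refine (cell_subset_par hd k v).trans ?_
    rw [h]
    exact subset_biUnion_of_mem (u := fun V => cell d₀ V) hV
  simp only [frame, Finset.coe_union, Finset.coe_product, mem_union, mem_prod, Finset.mem_coe,
    Finset.mem_insert, Finset.mem_singleton, Finset.mem_Icc]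
  by_contra hcon
  push Not at hcon
  apply hpar
  have m1 : ¬ (v.1 = 2 ^ k * V.1 - 1 ∨ v.1 = 2 ^ k * (V.1 + 1)) := by
    intro h
    have := hcon.1 h k2.1
    linarith [k2.2]
  have m2 : ¬ (v.2 = 2 ^ k * V.2 - 1 ∨ v.2 = 2 ^ k * (V.2 + 1)) := by
    intro h
    have := hcon.2 ⟨k1.1, k1.2⟩
    tauto
  push Not at m1 m2
  have q1 : 2 ^ k * V.1 ≤ v.1 ∧ v.1 < 2 ^ k * (V.1 + 1) := by
    have a1 := m1.1
    have a2 := m1.2
    constructor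
    · have := k1.1
      omega
    · exact lt_of_le_of_ne k1.2 a2
  have q2 : 2 ^ k * V.2 ≤ v.2 ∧ v.2 < 2 ^ k * (V.2 + 1) := by
    have a1 := m2.1
    have a2 := m2.2
    constructor
    · have := k2.1
      omega
    · exact lt_of_le_of_ne k2.2 a2
  refine Prod.ext ?_ ?_
  · show v.1 / 2 ^ k = V.1
    exact (Int.ediv_eq_iff_of_pos hpZ).2 ⟨by nlinarith [q1.1], by nlinarith [q1.2]⟩
  · show v.2 / 2 ^ k = V.2
    exact (Int.ediv_eq_iff_of_pos hpZ).2 ⟨by nlinarith [q2.1], by nlinarith [q2.2]⟩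

lemma finite_bdc {d₀ : ℝ} (hd : 0 < d₀) (D : Finset (ℤ × ℤ)) (k : ℕ) : (bdc d₀ D k).Finite :=
  (Finset.finite_toSet _).subset (bdc_subset hd D k)

/-- **[BDS]** boundary sums are bounded independently of the mesh -/
theorem bds {G : Set ℂ} {u ρ : ℂ → ℝ} (h : Maj G u ρ) {d₀ : ℝ} (hd : 0 < d₀)
    (D : Finset (ℤ × ℤ)) {M : ℝ} (hM0 : 0 ≤ M)
    (hM : ∀ V : ℤ × ℤ, V ∉ D → (cell d₀ V ∩ ⋃ V ∈ D, cell d₀ V).Nonempty →
      cell d₀ V ⊆ G ∧ ∀ z ∈ cell d₀ V, ρ z ≤ M) (k : ℕ) (T : Finset (ℤ × ℤ))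
    (hT : ∀ v ∈ T, v ∈ bdc d₀ D k) :
    ∑ v ∈ T, oc u (d₀ / 2 ^ k) v ≤ 24 * D.card * d₀ * M := by
  have hp : (0:ℝ) < 2 ^ k := by positivity
  have hterm : ∀ v ∈ T, oc u (d₀ / 2 ^ k) v ≤ M * (2 * (d₀ / 2 ^ k)) := by
    intro v hv
    obtain ⟨⟨z, hz, hzD⟩, hnot⟩ := hT v hv
    have hsub := cell_subset_par hd k v
    have hpD : par k v ∉ D := by
      intro hc
      exact hnot (hsub.trans (subset_biUnion_of_mem (u := fun V => cell d₀ V) hc))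
    obtain ⟨h1, h2⟩ := hM (par k v) hpD ⟨z, hsub hz, hzD⟩
    exact h.oc_le (by positivity) (hsub.trans h1) hM0 fun z hz => h2 z (hsub hz)
  have hcard : (T.card : ℝ) ≤ 12 * D.card * 2 ^ k := by
    have h1 : T ⊆ D.biUnion (frame k) := by
      intro v hv
      have := bdc_subset hd D k (hT v hv)
      exact_mod_cast this
    have h2 : T.card ≤ D.card * (12 * 2 ^ k) := by
      refine (Finset.card_le_card h1).trans ?_
      exact Finset.card_biUnion_le_card_mul _ _ _ fun V _ => card_frame_le k V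
    have h3 : (T.card : ℝ) ≤ D.card * (12 * 2 ^ k) := by exact_mod_cast h2
    linarith
  calc ∑ v ∈ T, oc u (d₀ / 2 ^ k) v ≤ ∑ _v ∈ T, M * (2 * (d₀ / 2 ^ k)) := Finset.sum_le_sum hterm
    _ = T.card * (M * (2 * (d₀ / 2 ^ k))) := by rw [Finset.sum_const, nsmul_eq_mul]
    _ ≤ (12 * D.card * 2 ^ k) * (M * (2 * (d₀ / 2 ^ k))) := by
        gcongr
    _ = 24 * D.card * d₀ * M := by
        field_simp
        ring

end Vale.Agent.P116.KB720
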