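import Vale.Agent.P116.KB.H720.Cells

/-!
P116, block [7]: the polygonal region of a node, and the sums over cells in the form used for the
choice of the random grid.
-/

open Set Filter Topology Metric Bornology MeasureTheory
open scoped ENNReal NNReal

namespace Vale.Agent.P116.KB720

lemma exists_mem_cello {d : ℝ} (hd : 0 < d) (z : ℂ) : ∃ v : ℤ × ℤ, z ∈ cello d v := by
  refine ⟨(⌊z.re / d⌋, ⌊z.im / d⌋), ?_⟩
  have h1 := Int.floor_le (z.re / d)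
  have h2 := Int.lt_floor_add_one (z.re / d)
  have h3 := Int.floor_le (z.im / d)
  have h4 := Int.lt_floor_add_one (z.im / d)
  rw [le_div_iff₀ hd] at h1 h3
  rw [div_lt_iff₀ hd] at h2 h4
  exact ⟨by linarith, by linarith, by linarith, by linarith⟩

lemma exists_mem_cell {d : ℝ} (hd : 0 < d) (z : ℂ) : ∃ v : ℤ × ℤ, z ∈ cell d v := by
  obtain ⟨v, hv⟩ := exists_mem_cello hd z
  exact ⟨v, cello_subset d v hv⟩

/-- finitely many cells meet a bounded set -/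
lemma finite_meet {d : ℝ} (hd : 0 < d) {B : Set ℂ} (hB : IsBounded B) :
    {v : ℤ × ℤ | (cell d v ∩ B).Nonempty}.Finite := by
  obtain ⟨R, hR⟩ := hB.subset_closedBall 0
  refine ((Set.finite_Icc (⌊-R / d⌋ - 1) (⌈R / d⌉ + 1)).prod
    (Set.finite_Icc (⌊-R / d⌋ - 1) (⌈R / d⌉ + 1))).subset ?_
  rintro v ⟨z, ⟨h1, h2, h3, h4⟩, hzB⟩
  have hz := hR hzB
  rw [mem_closedBall, dist_zero_right] at hz
  have key : ∀ (n : ℤ) (x : ℝ), |x| ≤ R → d * n ≤ x → x ≤ d * (n + 1) →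
      ⌊-R / d⌋ - 1 ≤ n ∧ n ≤ ⌈R / d⌉ + 1 := by
    intro n x hx e1 e2
    obtain ⟨hx1, hx2⟩ := abs_le.1 hx
    have f1 : -R / d ≤ n + 1 := by
      rw [div_le_iff₀ hd]
      nlinarith
    have f2 : (n : ℝ) ≤ R / d := by
      rw [le_div_iff₀ hd]
      nlinarith
    have f3 : ((⌊-R / d⌋ : ℤ) : ℝ) ≤ n + 1 := (Int.floor_le _).trans f1
    have f4 : (n : ℝ) ≤ ((⌈R / d⌉ : ℤ) : ℝ) := f2.trans (Int.le_ceil _)
    have f5 : ⌊-R / d⌋ ≤ n + 1 := by exact_mod_cast f3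
    have f6 : n ≤ ⌈R / d⌉ := by exact_mod_cast f4
    omega
  exact ⟨key v.1 z.re ((Complex.abs_re_le_norm z).trans hz) h1 h2,
    key v.2 z.im ((Complex.abs_im_le_norm z).trans hz) h3 h4⟩

lemma locallyFinite_cell {d : ℝ} (hd : 0 < d) : LocallyFinite (cell d) := by
  intro x
  refine ⟨ball x 1, ball_mem_nhds x one_pos, ?_⟩
  exact finite_meet hd isBounded_ball

lemma dist_le_of_mem {d : ℝ} (hd : 0 < d) {v : ℤ × ℤ} {z z' : ℂ} (hz : z ∈ cell d v)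
    (hz' : z' ∈ cell d v) : dist z z' ≤ 2 * d := by
  have h3 := dist_sq_le hz hz'
  rw [dist_eq_norm]
  nlinarith [norm_nonneg (z - z')]

/-- the union of the cells of `D` -/
def un (d : ℝ) (D : Finset (ℤ × ℤ)) : Set ℂ := ⋃ V ∈ D, cell d V

lemma isCompact_un (d : ℝ) (D : Finset (ℤ × ℤ)) : IsCompact (un d D) :=
  D.isCompact_biUnion fun V _ => isCompact_cell d V

/-- **[R0]** the polygonal region -/
theorem exists_R0 {K' O : Set ℂ} (hK : IsCompact K') (hO : IsOpen O) (hsub : K' ⊆ O) :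
    ∃ d₀ > 0, ∃ D : Finset (ℤ × ℤ), (∀ V, V ∈ D ↔ (cell d₀ V ∩ K').Nonempty) ∧
      K' ⊆ interior (un d₀ D) ∧ ∀ V, (cell d₀ V ∩ un d₀ D).Nonempty → cell d₀ V ⊆ O := by
  classical
  obtain ⟨δ, hδ, hδO⟩ := hK.exists_thickening_subset_open hO hsub
  set d₀ := δ / 8 with hd₀
  have hd : 0 < d₀ := by positivity
  have hfin : {V : ℤ × ℤ | (cell d₀ V ∩ K').Nonempty}.Finite := finite_meet hd hK.isBounded
  refine ⟨d₀, hd, hfin.toFinset, fun V => by simp, ?_, ?_⟩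
  · -- neighbourhood of `K'`
    intro a ha
    have hcl : IsClosed (⋃ V : {V : ℤ × ℤ // V ∉ hfin.toFinset}, cell d₀ V.1) :=
      ((locallyFinite_cell hd).comp_injective Subtype.val_injective).isClosed_iUnion
        fun V => isClosed_cell d₀ V.1
    have hno : a ∉ ⋃ V : {V : ℤ × ℤ // V ∉ hfin.toFinset}, cell d₀ V.1 := by
      intro h
      obtain ⟨V, hV⟩ := mem_iUnion.1 h
      exact V.2 (by simpa using ⟨a, hV, ha⟩)
    refine mem_interior.2 ⟨_, ?_, hcl.isOpen_compl, hno⟩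
    intro x hx
    obtain ⟨V, hV⟩ := exists_mem_cell hd x
    by_cases hVD : V ∈ hfin.toFinset
    · exact mem_iUnion₂.2 ⟨V, hVD, hV⟩
    · exact absurd (mem_iUnion.2 ⟨⟨V, hVD⟩, hV⟩) hx
  · rintro V ⟨z, hz, hzD⟩ x hx
    obtain ⟨V', hV', hzV'⟩ := mem_iUnion₂.1 hzD
    have hV'2 : (cell d₀ V' ∩ K').Nonempty := by simpa using hV'
    obtain ⟨a, ha, haK⟩ := hV'2
    apply hδO
    rw [mem_thickening_iff]
    refine ⟨a, haK, ?_⟩
    have h1 := dist_le_of_mem hd hx hz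
    have h2 := dist_le_of_mem hd hzV' ha
    have h3 := dist_triangle x z a
    have : d₀ = δ / 8 := hd₀
    linarith

/-- lower and upper value on a cell -/
noncomputable def clo (u : ℂ → ℝ) (d : ℝ) (v : ℤ × ℤ) : ℝ := sInf (u '' cell d v)
/-- upper value on a cell -/
noncomputable def chi (u : ℂ → ℝ) (d : ℝ) (v : ℤ × ℤ) : ℝ := sSup (u '' cell d v)

lemma cell_nonempty {d : ℝ} (hd : 0 ≤ d) (v : ℤ × ℤ) : (cell d v).Nonempty :=
  ⟨⟨d * v.1, d * v.2⟩, le_rfl, by nlinarith, le_rfl, by nlinarith⟩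

lemma mem_Icc_of_mem {u : ℂ → ℝ} {d : ℝ} {v : ℤ × ℤ} (hu : ContinuousOn u (cell d v)) {z : ℂ}
    (hz : z ∈ cell d v) : u z ∈ Icc (clo u d v) (chi u d v) := by
  have hc : IsCompact (u '' cell d v) := (isCompact_cell d v).image_of_continuousOn hu
  exact ⟨csInf_le hc.bddBelow ⟨z, hz, rfl⟩, le_csSup hc.bddAbove ⟨z, hz, rfl⟩⟩

lemma clo_le_chi {u : ℂ → ℝ} {d : ℝ} (hd : 0 ≤ d) {v : ℤ × ℤ} (hu : ContinuousOn u (cell d v)) :
    clo u d v ≤ chi u d v := by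
  obtain ⟨z, hz⟩ := cell_nonempty hd v
  exact (mem_Icc_of_mem hu hz).1.trans (mem_Icc_of_mem hu hz).2

lemma chi_sub_clo {u : ℂ → ℝ} {d : ℝ} {v : ℤ × ℤ} (hu : ContinuousOn u (cell d v)) :
    chi u d v - clo u d v = oc u d v :=
  (Real.diam_eq ((isCompact_cell d v).image_of_continuousOn hu).isBounded).symm

/-- `Maj` gives continuity on cells if the majorant is bounded there -/
lemma Maj.continuousOn_cell {G : Set ℂ} {u ρ : ℂ → ℝ} (h : Maj G u ρ) {d : ℝ} {v : ℤ × ℤ}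
    (hv : cell d v ⊆ G) {M : ℝ} (hM : ∀ z ∈ cell d v, ρ z ≤ M) : ContinuousOn u (cell d v) := by
  have hL : LipschitzOnWith (Real.toNNReal M) u (cell d v) := by
    refine LipschitzOnWith.of_dist_le_mul fun z hz z' hz' => ?_
    have hs : segment ℝ z z' ⊆ cell d v := (convex_cell d v).segment_subset hz hz'
    have h1 := h z z' (hs.trans hv) M fun x hx => hM x (hs hx)
    rw [Real.dist_eq, dist_eq_norm]
    exact h1.trans (mul_le_mul_of_nonneg_right (Real.le_coe_toNNReal M) (norm_nonneg _))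
  exact hL.continuousOn

lemma Maj.continuousOn_flat {G : Set ℂ} {u ρ : ℂ → ℝ} (h : Maj G u ρ) {d : ℝ} {v : ℤ × ℤ}
    (hv : cell d v ⊆ G) (hf : Flat ρ d v) : ContinuousOn u (cell d v) := by
  obtain ⟨M, hM⟩ := hf
  exact h.continuousOn_cell hv (M := Real.sqrt M) fun z hz => Real.le_sqrt_of_sq_le (hM z hz).1

/-- the cells of mesh `d₀ / 2 ^ k` in `un d₀ D \ K` on which all the majorants are flat -/
def Tk {ι : Type*} (K : Set ℂ) (ρ : ι → ℂ → ℝ) (d₀ : ℝ) (D : Finset (ℤ × ℤ)) (k : ℕ) :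
    Set (ℤ × ℤ) :=
  {v | cell (d₀ / 2 ^ k) v ⊆ un d₀ D \ K ∧ ∀ i, Flat (ρ i) (d₀ / 2 ^ k) v}

lemma finite_Tk {ι : Type*} (K : Set ℂ) (ρ : ι → ℂ → ℝ) {d₀ : ℝ} (hd : 0 < d₀)
    (D : Finset (ℤ × ℤ)) (k : ℕ) : (Tk K ρ d₀ D k).Finite := by
  refine (finite_meet (d := d₀ / 2 ^ k) (by positivity) (isCompact_un d₀ D).isBounded).subset ?_
  rintro v ⟨hv, -⟩
  obtain ⟨z, hz⟩ := cell_nonempty (d := d₀ / 2 ^ k) (by positivity) v
  exact ⟨z, hz, (hv hz).1⟩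

lemma sum_erase_le {ι : Type*} [Fintype ι] [DecidableEq ι] {o : ι → ℝ} (ho : ∀ i, 0 ≤ o i) :
    ∑ i, ∑ j ∈ Finset.univ.erase i, o i * o j ≤ Fintype.card ι * ∑ i, o i ^ 2 := by
  calc ∑ i, ∑ j ∈ Finset.univ.erase i, o i * o j ≤ ∑ i, ∑ j, o i * o j := by
        refine Finset.sum_le_sum fun i _ => ?_
        exact Finset.sum_le_sum_of_subset_of_nonneg (Finset.erase_subset _ _)
          fun j _ _ => mul_nonneg (ho i) (ho j)
    _ = (∑ i, o i) ^ 2 := by rw [sq, Finset.sum_mul_sum]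
    _ ≤ _ := by
        have := sq_sum_le_card_mul_sum_sq (s := Finset.univ) (f := o)
        simpa using this

/-- the energy sums in real form -/
theorem sum_T {ι : Type*} [Fintype ι] [DecidableEq ι] {G W : Set ℂ} {u ρ : ι → ℂ → ℝ}
    (h : ∀ i, Maj G (u i) (ρ i)) {d : ℝ} (hd : 0 < d) (T : Finset (ℤ × ℤ))
    (hG : ∀ v ∈ T, cell d v ⊆ G) (hW : ∀ v ∈ T, cell d v ⊆ W) (hf : ∀ v ∈ T, ∀ i, Flat (ρ i) d v)
    (hfin : ∀ i, ∫⁻ z in W, (ENNReal.ofReal (ρ i z ^ 2) + 1) ≠ ⊤) :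
    ∑ v ∈ T, ∑ i, ∑ j ∈ Finset.univ.erase i, oc (u i) d v * oc (u j) d v ≤
      Fintype.card ι * (2 * ∑ i, (∫⁻ z in W, (ENNReal.ofReal (ρ i z ^ 2) + 1)).toReal) := by
  have h1 : ∀ i, ∑ v ∈ T, oc (u i) d v ^ 2 ≤
      2 * (∫⁻ z in W, (ENNReal.ofReal (ρ i z ^ 2) + 1)).toReal := by
    intro i
    have h2 := ens (h i) hd T hG hW fun v hv => hf v hv i
    rw [← ENNReal.ofReal_sum_of_nonneg fun v _ => sq_nonneg _] at h2
    have h3 := ENNReal.toReal_mono (ENNReal.mul_ne_top (by simp) (hfin i)) h2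
    rwa [ENNReal.toReal_ofReal (Finset.sum_nonneg fun v _ => sq_nonneg _), ENNReal.toReal_mul,
      ENNReal.toReal_ofNat] at h3
  calc _ ≤ ∑ v ∈ T, Fintype.card ι * ∑ i, oc (u i) d v ^ 2 :=
        Finset.sum_le_sum fun v _ => sum_erase_le fun i => oc_nonneg _ _ _
    _ = Fintype.card ι * ∑ i, ∑ v ∈ T, oc (u i) d v ^ 2 := by
        rw [← Finset.mul_sum, Finset.sum_comm]
    _ ≤ _ := by
        refine mul_le_mul_of_nonneg_left ?_ (Nat.cast_nonneg _)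
        rw [Finset.mul_sum]
        exact Finset.sum_le_sum fun i _ => h1 i

/-- the boundary sums for several functions -/
theorem sum_B {ι : Type*} [Fintype ι] {G : Set ℂ} {u ρ : ι → ℂ → ℝ}
    (h : ∀ i, Maj G (u i) (ρ i)) {d₀ : ℝ} (hd : 0 < d₀) (D : Finset (ℤ × ℤ)) {M : ℝ} (hM0 : 0 ≤ M)
    (hM : ∀ V : ℤ × ℤ, V ∉ D → (cell d₀ V ∩ un d₀ D).Nonempty →
      cell d₀ V ⊆ G ∧ ∀ i, ∀ z ∈ cell d₀ V, ρ i z ≤ M) (k : ℕ) (T : Finset (ℤ × ℤ))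
    (hT : ∀ v ∈ T, v ∈ bdc d₀ D k) :
    ∑ v ∈ T, ∑ i, oc (u i) (d₀ / 2 ^ k) v ≤ Fintype.card ι * (24 * D.card * d₀ * M) := by
  rw [Finset.sum_comm]
  calc _ ≤ ∑ _i : ι, 24 * D.card * d₀ * M := Finset.sum_le_sum fun i _ =>
        bds (h i) hd D hM0 (fun V hV hne => ⟨(hM V hV hne).1, (hM V hV hne).2 i⟩) k T hT
    _ = _ := by rw [Finset.sum_const, nsmul_eq_mul, Finset.card_univ]

/-- a compact region on which everything is bounded: the outer coarse cells -/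
lemma exists_bound {ι : Type*} [Finite ι] {G : Set ℂ} {ρ : ι → ℂ → ℝ}
    (hρ : ∀ i, ContinuousOn (ρ i) G) {d₀ : ℝ} (hd : 0 < d₀) (D : Finset (ℤ × ℤ))
    (hG : ∀ V : ℤ × ℤ, V ∉ D → (cell d₀ V ∩ un d₀ D).Nonempty → cell d₀ V ⊆ G) :
    ∃ M, 0 ≤ M ∧ ∀ V : ℤ × ℤ, V ∉ D → (cell d₀ V ∩ un d₀ D).Nonempty →
      cell d₀ V ⊆ G ∧ ∀ i, ∀ z ∈ cell d₀ V, ρ i z ≤ M := by
  classical
  cases nonempty_fintype ι
  have hfin : {V : ℤ × ℤ | (cell d₀ V ∩ un d₀ D).Nonempty}.Finite :=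
    finite_meet hd (isCompact_un d₀ D).isBounded
  set E : Finset (ℤ × ℤ) := hfin.toFinset.filter fun V => V ∉ D with hE
  have hEG : un d₀ E ⊆ G := by
    refine iUnion₂_subset fun V hV => ?_
    rw [hE, Finset.mem_filter, Set.Finite.mem_toFinset] at hV
    exact hG V hV.2 hV.1
  have h1 : ∀ i, ∃ M, ∀ z ∈ un d₀ E, ρ i z ≤ M := by
    intro i
    obtain ⟨M, hM⟩ := ((isCompact_un d₀ E).image_of_continuousOn ((hρ i).mono hEG)).bddAbove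
    exact ⟨M, fun z hz => hM ⟨z, hz, rfl⟩⟩
  choose m hm using h1
  refine ⟨∑ i, |m i|, Finset.sum_nonneg fun i _ => abs_nonneg _, fun V hV hne => ⟨hG V hV hne, ?_⟩⟩
  intro i z hz
  have hzE : z ∈ un d₀ E := by
    refine mem_iUnion₂.2 ⟨V, ?_, hz⟩
    rw [hE, Finset.mem_filter, Set.Finite.mem_toFinset]
    exact ⟨hne, hV⟩
  exact ((hm i z hzE).trans (le_abs_self _)).trans
    (Finset.single_le_sum (f := fun i => |m i|) (fun i _ => abs_nonneg _) (Finset.mem_univ i))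

/-- **the package for a node `w`** (only `K ∩ w ⊆ interior w` is used) -/
theorem package {ι : Type*} [Fintype ι] [DecidableEq ι] {K w : Set ℂ} {u ρ : ι → ℂ → ℝ}
    (hK : IsCompact (K ∩ w)) (hw : K ∩ w ⊆ interior w)
    (hρ : ∀ i, ContinuousOn (ρ i) (w \ K)) (h : ∀ i, Maj (w \ K) (u i) (ρ i))
    (hfin : ∀ i, ∫⁻ z in w \ K, (ENNReal.ofReal (ρ i z ^ 2) + 1) ≠ ⊤) :
    ∃ d₀ > 0, ∃ D : Finset (ℤ × ℤ), (∀ V, V ∈ D ↔ (cell d₀ V ∩ (K ∩ w)).Nonempty) ∧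
      K ∩ w ⊆ interior (un d₀ D) ∧
      (∀ V, (cell d₀ V ∩ un d₀ D).Nonempty → cell d₀ V ⊆ interior w) ∧
      (∀ V, V ∉ D → (cell d₀ V ∩ un d₀ D).Nonempty → Disjoint (cell d₀ V) K) ∧
      (∀ k, ∀ T : Finset (ℤ × ℤ), (∀ v ∈ T, v ∈ Tk K ρ d₀ D k) →
        ∑ v ∈ T, ∑ i, ∑ j ∈ Finset.univ.erase i, oc (u i) (d₀ / 2 ^ k) v * oc (u j) (d₀ / 2 ^ k) v ≤
        Fintype.card ι *
          (2 * ∑ i, (∫⁻ z in w \ K, (ENNReal.ofReal (ρ i z ^ 2) + 1)).toReal)) ∧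
      ∃ Bd : ℝ, ∀ k, ∀ T : Finset (ℤ × ℤ), (∀ v ∈ T, v ∈ bdc d₀ D k) →
        ∑ v ∈ T, ∑ i, oc (u i) (d₀ / 2 ^ k) v ≤ Bd := by
  obtain ⟨d₀, hd, D, h1, h2, h3⟩ := exists_R0 hK isOpen_interior hw
  have h4 : ∀ V, V ∉ D → (cell d₀ V ∩ un d₀ D).Nonempty → Disjoint (cell d₀ V) K := by
    intro V hV hne
    rw [disjoint_left]
    intro z hz hzK
    exact hV ((h1 V).2 ⟨z, hz, hzK, interior_subset (h3 V hne hz)⟩)
  have h5 : ∀ V, V ∉ D → (cell d₀ V ∩ un d₀ D).Nonempty → cell d₀ V ⊆ w \ K := by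
    intro V hV hne z hz
    exact ⟨interior_subset (h3 V hne hz), disjoint_left.1 (h4 V hV hne) hz⟩
  have h6 : un d₀ D ⊆ w := by
    refine iUnion₂_subset fun V hV => (h3 V ?_).trans interior_subset
    obtain ⟨z, hz⟩ := cell_nonempty hd.le V
    exact ⟨z, hz, mem_iUnion₂.2 ⟨V, hV, hz⟩⟩
  obtain ⟨M, hM0, hM⟩ := exists_bound hρ hd D h5
  refine ⟨d₀, hd, D, h1, h2, h3, h4, fun k T hT => ?_, _, fun k T hT =>
    sum_B h hd D hM0 hM k _ hT⟩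
  exact sum_T h (by positivity) _ (fun v hv => (hT v hv).1.trans (sdiff_subset_sdiff_left h6))
    (fun v hv => (hT v hv).1.trans (sdiff_subset_sdiff_left h6)) (fun v hv => (hT v hv).2) hfin

/-- cells of a compact part of the region are in `Tk` if the mesh is small -/
theorem evt_Tk {ι : Type*} [Finite ι] {K w A : Set ℂ} {ρ : ι → ℂ → ℝ} (hKc : IsClosed K)
    (hρ : ∀ i, ContinuousOn (ρ i) (w \ K)) {d₀ : ℝ} (hd : 0 < d₀) (D : Finset (ℤ × ℤ))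
    (hD : un d₀ D ⊆ interior w) (hA : IsCompact A) (hAD : A ⊆ un d₀ D \ K) :
    ∀ᶠ k : ℕ in atTop, ∀ v : ℤ × ℤ, (cell (d₀ / 2 ^ k) v ∩ A).Nonempty →
      v ∈ Tk K ρ d₀ D k ∨ v ∈ bdc d₀ D k := by
  have hG : IsOpen (interior w \ K) := isOpen_interior.sdiff hKc
  have hsub : A ⊆ interior w \ K := hAD.trans (sdiff_subset_sdiff_left hD)
  have h1 : ∀ i, ∃ δ > 0, ∀ d, 0 < d → d < δ → ∀ v : ℤ × ℤ,
      (cell d v ∩ A).Nonempty → cell d v ⊆ interior w \ K ∧ Flat (ρ i) d v := fun i =>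
    evt hG hA hsub ((hρ i).mono (sdiff_subset_sdiff_left interior_subset))
  choose δ hδ h2 using h1
  have hlim : Tendsto (fun k : ℕ => d₀ / 2 ^ k) atTop (𝓝 0) :=
    tendsto_const_nhds.div_atTop (tendsto_pow_atTop_atTop_of_one_lt one_lt_two)
  have h0 : ∃ δ₀ > 0, ∀ d, 0 < d → d < δ₀ → ∀ v : ℤ × ℤ,
      (cell d v ∩ A).Nonempty → cell d v ⊆ interior w \ K :=
    (evt (ρ := fun _ => 0) hG hA hsub continuousOn_const).imp fun δ₀ h =>
      ⟨h.1, fun d hd1 hd2 v hv => (h.2 d hd1 hd2 v hv).1⟩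
  obtain ⟨δ₀, hδ₀, h3⟩ := h0
  have h4 : ∀ᶠ k : ℕ in atTop, ∀ i, d₀ / 2 ^ k < δ i :=
    eventually_all.2 fun i => hlim.eventually_lt_const (hδ i)
  filter_upwards [h4, hlim.eventually_lt_const hδ₀] with k hk hk0 v hv
  have hp : 0 < d₀ / 2 ^ k := by positivity
  by_cases hsubD : cell (d₀ / 2 ^ k) v ⊆ un d₀ D
  · exact Or.inl ⟨fun z hz => ⟨hsubD hz, (h3 _ hp hk0 v hv hz).2⟩,
      fun i => (h2 i _ hp (hk i) v hv).2⟩
  · right
    obtain ⟨z, hz, hzA⟩ := hv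
    exact ⟨⟨z, hz, (hAD hzA).1⟩, hsubD⟩

end Vale.Agent.P116.KB720
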